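import Vale.Agent.P223W25.Hom
import Vale.Agent.P223.X.DefM

/-! Translation between the chains of the statement and the chains of the homology kit. -/

namespace Vale.Agent.P223W69

open Vale.Agent.P223 Vale.Agent.P223W25 Vale.Agent.P246.T

variable {M : Type} [TopologicalSpace M] {k : ℕ}

/-- singular simplices as continuous maps -/
def se (k : ℕ) : J.Simp k M ≃ C(Dl k, M) where
  toFun σ := ⟨σ.f, σ.cont⟩
  invFun s := ⟨s, s.continuous⟩
  left_inv _ := rfl
  right_inv _ := rfl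

/-- real chains -/
noncomputable def tr (k : ℕ) : (J.Simp (k + 1) M →₀ ℝ) ≃ₗ[ℝ] C ℝ k M :=
  Finsupp.domLCongr (se (k + 1))

theorem tr_apply (z : J.Simp (k + 1) M →₀ ℝ) (τ : J.Simp (k + 1) M) :
    tr k z (se _ τ) = z τ := by
  simp [tr]

theorem tr_apply' (z : J.Simp (k + 1) M →₀ ℝ) (s : C(Dl (k + 1), M)) :
    tr k z s = z ((se _).symm s) := by
  simp [tr]

theorem tr_single (σ : J.Simp (k + 1) M) (r : ℝ) :
    tr k (Finsupp.single σ r) = Finsupp.single (se _ σ) r := by
  simp [tr]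

theorem tr_int (z : J.Simp (k + 1) M →₀ ℝ) :
    (∀ s, ∃ m : ℤ, tr k z s = m) ↔ ∀ σ, ∃ m : ℤ, z σ = m :=
  ⟨fun h σ => by rw [← tr_apply]; exact h _, fun h s => by rw [tr_apply']; exact h _⟩

open Classical in
theorem bd_eq (z : J.Simp (k + 1) M →₀ ℝ) (τ : J.Simp k M) : J.bd z τ =
    z.sum fun σ r => ∑ i : Fin (k + 1),
      if (se _ σ).comp (face k i) = se _ τ then (-1) ^ (i : ℕ) * r else 0 := by
  unfold J.bd
  refine Finsupp.sum_congr fun σ _ => ?_
  rw [finsum_eq_sum_of_fintype]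
  refine Finset.sum_congr rfl fun i _ => ?_
  rw [finsum_eq_if]
  refine if_congr ⟨fun h => ContinuousMap.ext fun t => (h t).symm, fun h t => ?_⟩ rfl rfl
  exact (ContinuousMap.congr_fun h t).symm

theorem bd_tr (z : J.Simp (k + 2) M →₀ ℝ) (τ : J.Simp (k + 1) M) :
    J.bd z τ = bR k (tr (k + 1) z) (se _ τ) := by
  classical
  rw [bd_eq]
  induction z using Finsupp.induction_linear with
  | zero => simp
  | add a b ha hb =>
    rw [map_add, map_add, Finsupp.add_apply, ← ha, ← hb, Finsupp.sum_add_index']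
    · simp
    · intro σ r s
      rw [← Finset.sum_add_distrib]
      refine Finset.sum_congr rfl fun i _ => ?_
      split_ifs
      · ring
      · ring
  | single σ r =>
    rw [Finsupp.sum_single_index (by simp), tr_single, ext_single, Finsupp.smul_apply, cast_apply,
      bd_single, Finsupp.finsetSum_apply, Int.cast_sum, smul_eq_mul, Finset.mul_sum]
    refine Finset.sum_congr rfl fun i _ => ?_
    rw [Finsupp.single_apply]
    split_ifs
    · push_cast
      ring
    · simp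

theorem cyc_iff (z : J.Simp (k + 2) M →₀ ℝ) :
    (∀ τ, J.bd z τ = 0) ↔ bR k (tr (k + 1) z) = 0 := by
  refine ⟨fun h => Finsupp.ext fun s => ?_, fun h τ => by rw [bd_tr, h]; rfl⟩
  have := h ((se _).symm s)
  rwa [bd_tr, Equiv.apply_symm_apply] at this

/-- `z - z'` is a boundary -/
theorem hom_iff (z z' : J.Simp (k + 1) M →₀ ℝ) :
    (∃ b : J.Simp (k + 2) M →₀ ℝ, ∀ τ, z τ = z' τ + J.bd b τ) ↔
      ∃ b : C ℝ (k + 1) M, tr k z = tr k z' + bR k b := by
  constructor
  · rintro ⟨b, hb⟩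
    refine ⟨tr _ b, Finsupp.ext fun s => ?_⟩
    have := hb ((se _).symm s)
    rw [bd_tr, Equiv.apply_symm_apply] at this
    rw [Finsupp.add_apply, tr_apply', tr_apply', this]
  · rintro ⟨b, hb⟩
    refine ⟨(tr _).symm b, fun τ => ?_⟩
    rw [bd_tr, LinearEquiv.apply_symm_apply, ← tr_apply, hb, Finsupp.add_apply, tr_apply]

theorem aff_cont {n : ℕ} {c : M → J.Ch n M} {p : M} {s : J.Δ (n + 1) → M} (h : J.Aff c p s) :
    Continuous s := by
  obtain ⟨e, w, A, -, -, h1, -⟩ := h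
  have h2 : ∀ t, e (s t) = fun j => w j + ∑ i : Fin n, t i.succ * A i j := fun t =>
    funext (h1 t).2
  have h3 : s = fun t => e.symm fun j => w j + ∑ i : Fin n, t i.succ * A i j := by
    funext t
    rw [← h2, e.left_inv (h1 t).1]
  rw [h3]
  refine e.continuousOn_symm.comp_continuous (continuous_pi fun j => continuous_const.add
    (continuous_finsetSum _ fun i _ => Continuous.mul ?_ continuous_const)) fun t => ?_
  · exact (continuous_apply i.succ).comp continuous_subtype_val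
  · rw [← h2]
    exact e.map_source (h1 t).1

open Classical in
theorem loc_iff (z : J.Simp (k + 1) M →₀ ℝ) (p : M) (s : C(Dl (k + 1), M)) :
    (∃ b : J.Simp (k + 2) M →₀ ℝ, ∀ τ : J.Simp (k + 1) M, (∃ t, τ.f t = p) →
      z τ = J.bd b τ + if τ.f = s then 1 else 0) ↔
    Nl {p}ᶜ k (tr k z - cast ℝ (Finsupp.single s 1)) := by
  have key : ∀ (b : J.Simp (k + 2) M →₀ ℝ) (τ : J.Simp (k + 1) M),
      (z τ = J.bd b τ + if τ.f = s then 1 else 0) ↔
      (tr k z - cast ℝ (Finsupp.single s 1) - bR k (tr _ b) : C ℝ k M) (se _ τ) = 0 := by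
    intro b τ
    have h1 : (τ.f = s) ↔ s = se _ τ :=
      ⟨fun h => ContinuousMap.ext fun t => (congrFun h t).symm, fun h => by rw [h]; rfl⟩
    rw [Finsupp.sub_apply, Finsupp.sub_apply, tr_apply, ← bd_tr, cast_single, Int.cast_one,
      Finsupp.single_apply, if_congr h1 rfl rfl]
    constructor
    · intro h
      rw [h]
      ring
    · intro h
      linarith
  constructor
  · rintro ⟨b, hb⟩
    refine ⟨tr _ b, ?_⟩
    rw [Cn, Finsupp.mem_supported']
    intro σ hσ
    obtain ⟨t, ht⟩ := not_forall.1 hσ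
    exact (key b ((se _).symm σ)).1 (hb _ ⟨t, not_not.1 ht⟩)
  · rintro ⟨b, hb⟩
    refine ⟨(tr _).symm b, fun τ ⟨t, ht⟩ => (key _ τ).2 ?_⟩
    rw [Cn, Finsupp.mem_supported'] at hb
    rw [LinearEquiv.apply_symm_apply]
    exact hb _ fun h => h t ht

/-- fundamental cycles in the language of the homology kit -/
theorem fund_iff {c : M → J.Ch (k + 1) M} (z : J.Simp (k + 2) M →₀ ℝ) :
    J.IsFund c z ↔ bR k (tr (k + 1) z) = 0 ∧ ∀ p, ∃ s : C(Dl (k + 2), M), J.Aff c p s ∧
      Nl {p}ᶜ (k + 1) (tr (k + 1) z - cast ℝ (Finsupp.single s 1)) := by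
  refine and_congr (cyc_iff z) (forall_congr' fun p => ⟨?_, ?_⟩)
  · rintro ⟨s, hs, h⟩
    exact ⟨⟨s, aff_cont hs⟩, hs, (loc_iff z p ⟨s, aff_cont hs⟩).1 h⟩
  · rintro ⟨s, hs, h⟩
    exact ⟨s, hs, (loc_iff z p s).2 h⟩

end Vale.Agent.P223W69
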