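import Vale.Agent.P223.X.DefM
import Mathlib.Geometry.Manifold.VectorBundle.Riemannian
import Mathlib.Geometry.Manifold.VectorBundle.Tangent
import Mathlib.Geometry.Manifold.MFDeriv.Defs
import Mathlib.Geometry.Manifold.Instances.Real
import Mathlib.LinearAlgebra.Orientation

/-! Orientation, scalar curvature, volume measure and fundamental cycles of a smooth manifold. -/

namespace Vale.Agent.P223W69

open scoped Manifold ContDiff
open MeasureTheory Vale.Agent.P223.J

section

variable (V : Type) [NormedAddCommGroup V] [NormedSpace ℝ V]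
  {M : Type} [TopologicalSpace M] [ChartedSpace V M]

/-- The differential at `x` of a map `ψ` from a normed space to `M`, applied to `v`. -/
noncomputable def dv {W : Type} [NormedAddCommGroup W] [NormedSpace ℝ W] (ψ : W → M) (x v : W) :
    TangentSpace 𝓘(ℝ, V) (ψ x) := mfderiv 𝓘(ℝ, W) 𝓘(ℝ, V) ψ x v

/-- Fields of orientations of the tangent spaces. -/
def Ori (n : ℕ) (M : Type) [TopologicalSpace M] [ChartedSpace V M] : Type :=
  ∀ p : M, Orientation ℝ (TangentSpace 𝓘(ℝ, V) p) (Fin n)

/-- The tangent vectors `u i` form a basis which is positive for `o`. -/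
def PosB {n : ℕ} (o : Ori V n M) (p : M) (u : Fin n → TangentSpace 𝓘(ℝ, V) p) : Prop :=
  ∃ b : Module.Basis (Fin n) ℝ (TangentSpace 𝓘(ℝ, V) p), (∀ i, b i = u i) ∧ b.orientation = o p

/-- Smooth Riemannian metrics. -/
def RM (M : Type) [TopologicalSpace M] [ChartedSpace V M] [IsManifold 𝓘(ℝ, V) ∞ M] : Type :=
  Bundle.ContMDiffRiemannianMetric 𝓘(ℝ, V) ∞ V fun p : M => TangentSpace 𝓘(ℝ, V) p

/-- The scalar product of two tangent vectors. -/
noncomputable def inn [IsManifold 𝓘(ℝ, V) ∞ M] (g : RM V M) (p : M)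
    (u v : TangentSpace 𝓘(ℝ, V) p) : ℝ := g.inner p u v

end

/-- The Euclidean space. -/
abbrev EE (n : ℕ) := EuclideanSpace ℝ (Fin n)

/-- Charts with values in the Euclidean space. -/
abbrev Cht (n : ℕ) (M : Type) [TopologicalSpace M] := OpenPartialHomeomorph M (EE n)

variable {n : ℕ} {M : Type} [TopologicalSpace M]

/-- The coordinates `x_1, …, x_n` of a chart. -/
noncomputable def co (e : Cht n M) : Ch n M :=
  e.transHomeomorph (EuclideanSpace.equiv (Fin n) ℝ).toHomeomorph

variable [ChartedSpace (EE n) M]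

/-- The coordinate vector `∂/∂x_i` of the chart `e` at the point with coordinates `x`. -/
noncomputable def cv (e : Cht n M) (x : E n) (i : Fin n) : TangentSpace (𝓡 n) ((co e).symm x) :=
  dv (EE n) (co e).symm x (Pi.single i 1)

/-- `e` is a smooth chart whose coordinate vectors form positive bases for `o`. -/
def Pos (o : Ori (EE n) n M) (e : Cht n M) : Prop :=
  e ∈ IsManifold.maximalAtlas (𝓡 n) ∞ M ∧
    ∀ x ∈ (co e).target, PosB (EE n) o ((co e).symm x) (cv e x)

/-- `o` is an orientation of the manifold `M`: the positive charts cover `M`. -/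
def IsOri (o : Ori (EE n) n M) : Prop := ∀ p, ∃ e, p ∈ e.source ∧ Pos o e

/-- `s` is a positively oriented affine simplex in a positive chart, which contains `p` in its
interior. -/
def AffM (o : Ori (EE n) n M) (p : M) (s : Δ (n + 1) → M) : Prop :=
  ∃ (e : Cht n M) (w : E n) (A : Matrix (Fin n) (Fin n) ℝ), Pos o e ∧ 0 < A.det ∧
    (∀ t, s t ∈ e.source ∧ ∀ j, e (s t) j = w j + ∑ i : Fin n, t i.succ * A i j) ∧
    ∃ t, (∀ i, 0 < t i) ∧ s t = p

open Classical in
/-- `z` is a cycle whose class in `H_n(M, M - p)` is the local orientation, for every point `p`: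
there are a simplex `s` as above and a chain `b`, such that `z - s - ∂b` is supported on simplices
which do not meet `p`. -/
def IsFundM (o : Ori (EE n) n M) (z : Simp (n + 1) M →₀ ℝ) : Prop :=
  (∀ τ, bd z τ = 0) ∧ ∀ p, ∃ s, AffM o p s ∧ ∃ b : Simp (n + 2) M →₀ ℝ,
    ∀ τ : Simp (n + 1) M, (∃ t, τ.f t = p) → z τ = bd b τ + if τ.f = s then 1 else 0

variable [IsManifold (𝓡 n) ∞ M]

/-- The matrix `g(∂/∂x_i, ∂/∂x_j)` of the metric in the chart `e`. -/
noncomputable def gm (g : RM (EE n) M) (e : Cht n M) : Mtx n :=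
  fun x i j => inn (EE n) g ((co e).symm x) (cv e x i) (cv e x j)

/-- The scalar curvature of `g` at `p`. -/
noncomputable def Scal (g : RM (EE n) M) (p : M) : ℝ :=
  scal (gm g (chartAt _ p)) (co (chartAt _ p) p)

/-- `μ` is the Riemannian volume measure: it has the density `√(det g)` in all smooth charts. -/
def IsVol [MeasurableSpace M] (g : RM (EE n) M) (μ : Measure M) : Prop :=
  ∀ e ∈ IsManifold.maximalAtlas (𝓡 n) ∞ M, ∀ B ⊆ (co e).target, MeasurableSet B →
    μ ((co e).symm '' B) = ∫⁻ x in B, ENNReal.ofReal √(gm g e x).det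

end Vale.Agent.P223W69
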