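import Vale.Agent.P223W69.Man

/-! Positive charts, oriented atlases and fundamental cycles. -/

namespace Vale.Agent.P223W69

open scoped Manifold ContDiff Topology
open MeasureTheory Vale.Agent.P223 Vale.Agent.P223.J Set Module

variable {n : ℕ} {M : Type} [TopologicalSpace M]

theorem det_eq (L' : E n →L[ℝ] EE n) (φ : E n →L[ℝ] E n) (b b' : Basis (Fin n) ℝ (EE n))
    (hb : ∀ i, b i = L' (φ (Pi.single i 1))) (hb' : ∀ i, b' i = L' (Pi.single i 1)) :
    b'.det b = φ.det := by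
  have h : b'.toMatrix b = LinearMap.toMatrix' (φ : E n →ₗ[ℝ] E n) := by
    ext j i
    rw [Basis.toMatrix_apply, LinearMap.toMatrix'_apply, hb, D_sum]
    simp only [← hb']
    rw [Basis.repr_sum_self]
    rfl
  rw [Basis.det_apply, h, LinearMap.det_toMatrix']

theorem exists_basis (L' : E n →L[ℝ] EE n) (φ : E n →L[ℝ] E n) (hφ : φ.det ≠ 0)
    (b' : Basis (Fin n) ℝ (EE n)) (hb' : ∀ i, b' i = L' (Pi.single i 1)) :
    ∃ b : Basis (Fin n) ℝ (EE n), ∀ i, b i = L' (φ (Pi.single i 1)) := by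
  refine ⟨(Pi.basisFun ℝ (Fin n)).map
    ((φ.toContinuousLinearEquivOfDetNeZero hφ).toLinearEquiv.trans b'.equivFun.symm), fun i => ?_⟩
  rw [Basis.map_apply, Pi.basisFun_apply, LinearEquiv.trans_apply, Basis.equivFun_symm_apply,
    D_sum L']
  simp only [← hb']
  rfl

variable [ChartedSpace (EE n) M]

/-- The orientation at `p`. -/
def oo (o : Ori (EE n) n M) (p : M) : Orientation ℝ (EE n) (Fin n) := o p

theorem pos_iff {o : Ori (EE n) n M} {e : Cht n M} : Pos o e ↔
    e ∈ IsManifold.maximalAtlas (𝓡 n) ∞ M ∧ ∀ p ∈ (co e).source, ∃ b : Basis (Fin n) ℝ (EE n),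
      (∀ i, b i = D (co e) (co e p) (Pi.single i 1)) ∧ b.orientation = oo o p := by
  refine and_congr_right fun _ => ⟨fun h p hp => ?_, fun h x hx => ?_⟩
  · obtain ⟨b, h1, h2⟩ := h _ ((co e).map_source hp)
    refine ⟨b, h1, ?_⟩
    have h3 : oo o ((co e).symm (co e p)) = oo o p := by rw [(co e).left_inv hp]
    exact h2.trans h3
  · obtain ⟨b, h1, h2⟩ := h _ ((co e).map_target hx)
    rw [(co e).right_inv hx] at h1
    exact ⟨b, h1, h2⟩

theorem Pos.comp {o : Ori (EE n) n M} {e e' : Cht n M} (h : Pos o e) (h' : Pos o e') :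
    Comp (co e) (co e') := by
  intro p hp hp'
  have h0 := (sc_co h.1).cm (sc_co h'.1) hp hp'
  refine ⟨h0, ?_⟩
  obtain ⟨b, h1, h2⟩ := (pos_iff.1 h).2 p hp
  obtain ⟨b', h1', h2'⟩ := (pos_iff.1 h').2 p hp'
  rw [← det_eq (D (co e') (co e' p)) _ b b' (fun i => by
    rw [h1, chain (sc_co h'.1) hp hp' (h0.differentiableAt (by simp))]) h1',
    ← Basis.orientation_eq_iff_det_pos, h2, h2']

theorem sc_of_comp {e : Ch n M} {c : M → Ch n M} (hc : ∀ a, a ∈ (c a).source ∧ SC (c a))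
    (h : ∀ a, Comp e (c a)) : SC e := by
  refine ⟨fun p hp => ContMDiffAt.contMDiffWithinAt ?_, fun x hx => ContMDiffAt.contMDiffWithinAt ?_⟩
  · obtain ⟨hp', hs⟩ := hc p
    obtain ⟨h1, h2⟩ := h p p hp hp'
    have hx : c p p ∈ (e.symm.trans (c p)).target := ⟨(c p).map_source hp', by
      show (c p).symm (c p p) ∈ e.source
      rwa [(c p).left_inv hp']⟩
    have e1 : (e.symm.trans (c p)).symm (c p p) = e p := by
      show e ((c p).symm (c p p)) = e p
      rw [(c p).left_inv hp']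
    have h3 : ContDiffAt ℝ ∞ (e.symm.trans (c p)).symm (c p p) := by
      refine (e.symm.trans (c p)).contDiffAt_symm
        (f₀' := (fderiv ℝ (cm e (c p)) (e p)).toContinuousLinearEquivOfDetNeZero h2.ne') hx ?_ ?_
      · rw [e1, ContinuousLinearMap.coe_toContinuousLinearEquivOfDetNeZero]
        exact (h1.differentiableAt (by simp)).hasFDerivAt
      · rw [e1]
        exact h1
    refine (h3.contMDiffAt.comp p (hs.at hp')).congr_of_eventuallyEq ?_
    filter_upwards [(c p).open_source.mem_nhds hp'] with q hq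
    show e q = e ((c p).symm (c p q))
    rw [(c p).left_inv hq]
  · have hp := e.map_target hx
    obtain ⟨hp', hs⟩ := hc (e.symm x)
    have h1 := (h _ _ hp hp').1
    have h2 := ev_symm hp hp'
    have h3 := hs.symm_at ((c (e.symm x)).map_source hp')
    rw [← cm_apply hp] at h3
    rw [e.right_inv hx] at h1 h2 h3
    exact (h3.comp x h1.contMDiffAt).congr_of_eventuallyEq h2

theorem pos_un [IsManifold (𝓡 n) ∞ M] {o : Ori (EE n) n M} {e : Ch n M} {c : M → Cht n M}
    (hc : ∀ a, a ∈ (c a).source ∧ Pos o (c a)) (h : ∀ a, Comp e (co (c a))) : Pos o (un e) := by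
  have hs : SC e := sc_of_comp (c := fun a => co (c a)) (fun a => ⟨(hc a).1, sc_co (hc a).2.1⟩) h
  refine pos_iff.2 ⟨mem_un hs, ?_⟩
  rw [co_un]
  intro p hp
  have hp' : p ∈ (co (c p)).source := (hc p).1
  obtain ⟨h1, h2⟩ := h p p hp hp'
  obtain ⟨b', h1', h2'⟩ := (pos_iff.1 (hc p).2).2 p hp'
  obtain ⟨b, hb⟩ := exists_basis _ _ h2.ne' b' h1'
  refine ⟨b, fun i => ?_, ?_⟩
  · rw [hb, chain (sc_co (hc p).2.1) hp hp' (h1.differentiableAt (by simp))]
  · rw [← h2', eq_comm, Basis.orientation_eq_iff_det_pos, det_eq _ _ b b' hb h1']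
    exact h2

theorem aff_iff [IsManifold (𝓡 n) ∞ M] {o : Ori (EE n) n M} {c : M → Cht n M}
    (hc : ∀ a, a ∈ (c a).source ∧ Pos o (c a)) (p : M) (s : Δ (n + 1) → M) :
    AffM o p s ↔ Aff (fun a => co (c a)) p s :=
  ⟨fun ⟨e, w, A, h1, h2⟩ => ⟨co e, w, A, fun a => h1.comp (hc a).2, h2⟩,
    fun ⟨e, w, A, h1, h2⟩ => ⟨un e, w, A, pos_un hc h1, h2⟩⟩

/-- An oriented smooth manifold has an oriented atlas with the same fundamental cycles, in which
every Riemannian metric has matrices with the same scalar curvature and volume measure. -/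
theorem exists_bridge [IsManifold (𝓡 n) ∞ M] [MeasurableSpace M] {o : Ori (EE n) n M} (ho : IsOri o) :
    ∃ c : M → Ch n M, Atl c ∧ (∀ z, IsFundM o z ↔ IsFund c z) ∧ ∀ g : RM (EE n) M, ∃ G : M → Mtx n,
      Met c G ∧ (∀ p, sn c G p = max 0 (-Scal g p)) ∧ ∀ μ : Measure M, IsVol g μ → Vol c G μ := by
  choose c hc using ho
  refine ⟨fun a => co (c a), fun a => ⟨(hc a).1, fun b => (hc a).2.comp (hc b).2⟩, fun z => ?_,
    fun g => ⟨fun a => gm g (c a), met_J g fun a => (hc a).2.1, fun p => ?_,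
      fun μ hμ a => hμ _ (hc a).2.1⟩⟩
  · simp only [IsFundM, IsFund, aff_iff hc]
  · unfold sn
    rw [scal_eq g (hc p).2.1 (hc p).1]

end Vale.Agent.P223W69
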