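import Vale.Agent.P223W69.St
import Vale.Agent.P223W69.Ori

/-! The inequality for smooth manifolds, from the inequality for oriented atlases. -/

namespace Vale.Agent.P223W69

open scoped Manifold ContDiff
open MeasureTheory Vale.Agent.P223.J

/-- The fundamental cycles form one homology class, which contains an integral cycle. -/
def Cls (n : ℕ) : Prop := ∀ (M : Type) [TopologicalSpace M] [CompactSpace M] [T2Space M]
  (c : M → Ch n M), Atl c → ∃ z₀ : Simp (n + 1) M →₀ ℝ, (∀ σ, ∃ m : ℤ, z₀ σ = m) ∧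
    IsFund c z₀ ∧ ∀ z, IsFund c z ↔ Homol z z₀

theorem fin {n : ℕ} (H : Cls n) (Q : ∃ A : ℝ, 0 < A ∧ ∀ (M : Type) [TopologicalSpace M]
    [CompactSpace M] [T2Space M] [ConnectedSpace M] [MeasurableSpace M] [BorelSpace M]
    (c : M → Ch n M), Atl c → ∀ (g : M → Mtx n) (μ : Measure M), Met c g → Vol c g μ →
      sv c ≤ ENNReal.ofReal A * L n μ (sn c g)) :
    ∃ a > (0 : ℝ), ∀ (M : Type) [TopologicalSpace M]
    [CompactSpace M] [T2Space M] [ConnectedSpace M] [ChartedSpace (EE n) M]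
    [IsManifold (𝓡 n) ∞ M] [MeasurableSpace M] [BorelSpace M] (o : Ori (EE n) n M), IsOri o →
    ∃ z₀ : Simp (n + 1) M →₀ ℝ, (∀ σ, ∃ m : ℤ, z₀ σ = m) ∧ IsFundM o z₀ ∧
      (∀ z, IsFundM o z ↔ Homol z z₀) ∧ ∀ g : RM (EE n) M,
      (∀ e ∈ IsManifold.maximalAtlas (𝓡 n) ∞ M, ∀ p ∈ e.source,
        scal (gm g e) (co e p) = Scal g p) ∧
      (∃! μ : Measure M, IsVol g μ) ∧ ∀ μ : Measure M, IsVol g μ →
        ENNReal.ofReal a * nrm z₀ ≤
          ∫⁻ p, ENNReal.ofReal (max 0 (-Scal g p) ^ ((n : ℝ) / 2)) ∂μ := by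
  obtain ⟨A, A0, Q⟩ := Q
  refine ⟨A⁻¹, inv_pos.2 A0, fun M _ _ _ _ _ _ _ _ o ho => ?_⟩
  obtain ⟨c, hc, h1, h2⟩ := exists_bridge ho
  obtain ⟨z₀, k1, k2, k3⟩ := H M c hc
  refine ⟨z₀, k1, (h1 _).2 k2, fun z => (h1 z).trans (k3 z), fun g =>
    ⟨fun e he p hp => scal_eq g he hp, exists_unique_vol g, fun μ hμ => ?_⟩⟩
  obtain ⟨G, hG, h3, h4⟩ := h2 g
  have e1 : nrm z₀ = sv c := by simp only [nrm, sv, k3]
  have e2 : L n μ (sn c G) =
      ∫⁻ p, ENNReal.ofReal (max 0 (-Scal g p) ^ ((n : ℝ) / 2)) ∂μ := by simp only [L, h3]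
  rw [e1, ← e2]
  refine (mul_le_mul_right (Q M c hc G μ hG (h4 μ hμ)) _).trans (le_of_eq ?_)
  rw [← mul_assoc, ← ENNReal.ofReal_mul (inv_pos.2 A0).le, inv_mul_cancel₀ A0.ne',
    ENNReal.ofReal_one, one_mul]

end Vale.Agent.P223W69
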