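import Vale.Agent.P223.X.RicU
import Mathlib.MeasureTheory.Function.Jacobian

/-! The volume measure exists and is unique; the scalar curvature does not depend on the chart. -/

open scoped ContDiff Matrix ENNReal Topology
open MeasureTheory Set Vale.Agent.P223 Vale.Agent.P223.J

namespace Vale.Agent.P223W69

/-- gluing measures -/
theorem glue {Y P : Type} [MeasurableSpace Y] [Countable P] [Nonempty P] (A : P → Set Y)
    (hA : ∀ p, MeasurableSet (A p)) (m : P → Measure Y)
    (hm : ∀ p q (S : Set Y), MeasurableSet S → S ⊆ A p → S ⊆ A q → m p S = m q S) :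
    ∃ μ : Measure Y, ∀ p (S : Set Y), MeasurableSet S → S ⊆ A p → μ S = m p S := by
  obtain ⟨e, he⟩ := exists_surjective_nat P
  have hD : ∀ k, MeasurableSet (disjointed (fun k => A (e k)) k) :=
    MeasurableSet.disjointed fun k => hA (e k)
  refine ⟨Measure.sum fun k => (m (e k)).restrict (disjointed (fun k => A (e k)) k),
    fun p S hS hSp => ?_⟩
  rw [Measure.sum_apply _ hS]
  have h1 : ∀ k, ((m (e k)).restrict (disjointed (fun k => A (e k)) k)) S =
      m p (S ∩ disjointed (fun k => A (e k)) k) := fun k => by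
    rw [Measure.restrict_apply hS]
    exact hm _ _ _ (hS.inter (hD k))
      (Set.inter_subset_right.trans (disjointed_subset _ _)) (Set.inter_subset_left.trans hSp)
  simp_rw [h1]
  rw [← measure_iUnion _ fun k => hS.inter (hD k)]
  · congr 1
    rw [← Set.inter_iUnion, iUnion_disjointed]
    refine Set.inter_eq_left.2 fun x hx => ?_
    obtain ⟨k, hk⟩ := he p
    exact Set.mem_iUnion.2 ⟨k, by rw [hk]; exact hSp hx⟩
  · intro k l hkl
    exact ((disjoint_disjointed _ hkl).mono Set.inter_subset_right Set.inter_subset_right)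

variable {n : ℕ} {M : Type} [TopologicalSpace M]

/-- The matrices `G`, `G'` in the charts `e`, `e'` describe the same metric. -/
def Rel (e e' : Ch n M) (G G' : Mtx n) : Prop := ∀ p ∈ e.source, p ∈ e'.source →
  ContDiffAt ℝ ∞ (cm e e') (e p) ∧ ∀ v w, bil (G (e p)) v w =
    bil (G' (e' p)) (fderiv ℝ (cm e e') (e p) v) (fderiv ℝ (cm e e') (e p) w)

theorem Rel.chg {e e' : Ch n M} {G G' : Mtx n} (h : Rel e e' G G') :
    Chg (e.target ∩ e.symm ⁻¹' e'.source) e.target e'.target (cm e e') G G' where
  isOpen := e.symm.isOpen_inter_preimage e'.open_source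
  sub := Set.inter_subset_left
  maps x hx := e'.map_source hx.2
  smooth x hx := by
    have := (h _ (e.map_target hx.1) hx.2).1
    rwa [e.right_inv hx.1] at this
  compat x hx := by
    obtain ⟨h0, h1⟩ := h _ (e.map_target hx.1) hx.2
    rw [e.right_inv hx.1] at h0 h1
    have hd : DifferentiableAt ℝ (cm e e') x := h0.differentiableAt (by simp)
    have hcm : cm e e' x = e' (e.symm x) := rfl
    rw [hcm]
    ext i j
    rw [← X.RicU.bil_single (G x) i j, h1, Matrix.mul_apply]
    unfold bil
    rw [Finset.sum_comm]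
    refine Finset.sum_congr rfl fun l _ => ?_
    rw [Matrix.mul_apply, Finset.sum_mul]
    refine Finset.sum_congr rfl fun k _ => ?_
    rw [Matrix.transpose_apply, X.RicU.jac_apply hd, X.RicU.jac_apply hd]
    ring

theorem Rel.scal_eq {e e' : Ch n M} {G G' : Mtx n} (h : Rel e e' G G')
    (hG : IsMetricOn e.target G) (hG' : IsMetricOn e'.target G') {p : M} (hp : p ∈ e.source)
    (hp' : p ∈ e'.source) : J.scal G (e p) = J.scal G' (e' p) := by
  have hx : e p ∈ e.target ∩ e.symm ⁻¹' e'.source := ⟨e.map_source hp, by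
    simp only [Set.mem_preimage]; rwa [e.left_inv hp]⟩
  have := scal_trans hG e.open_target hG' e'.open_target h.chg hx
  have e1 : cm e e' (e p) = e' p := by unfold cm; rw [e.left_inv hp]
  rw [e1] at this
  exact this

theorem jac_det {φ : E n → E n} {x : E n} (hφ : DifferentiableAt ℝ φ x) :
    (fderiv ℝ φ x).det = (jac φ x).det := by
  have h2 : LinearMap.toMatrix' (fderiv ℝ φ x : E n →ₗ[ℝ] E n) = jac φ x := by
    ext i j
    rw [LinearMap.toMatrix'_apply, X.RicU.jac_apply hφ]
    rfl
  rw [← h2, LinearMap.det_toMatrix']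

variable [MeasurableSpace M] [BorelSpace M]

/-- The density. -/
noncomputable def dens (g : Mtx n) (x : E n) : ℝ≥0∞ := ENNReal.ofReal √(g x).det

/-- The points of the chart over `B`. -/
def ov (e : Ch n M) (B : Set M) : Set (E n) := e.target ∩ e.symm ⁻¹' B

theorem measurableSet_ov (e : Ch n M) {B : Set M} (hB : MeasurableSet B) :
    MeasurableSet (ov e B) := by
  have h1 : Measurable (e.target.domRestrict e.symm) :=
    (continuousOn_iff_continuous_domRestrict.1 e.continuousOn_symm).measurable
  have h2 := MeasurableSet.subtype_image e.open_target.measurableSet (h1 hB)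
  convert h2 using 1
  ext x
  constructor
  · rintro ⟨h3, h4⟩
    exact ⟨⟨x, h3⟩, h4, rfl⟩
  · rintro ⟨⟨y, h3⟩, h4, rfl⟩
    exact ⟨h3, h4⟩

theorem measurableSet_image (e : Ch n M) {B : Set (E n)} (hB : B ⊆ e.target)
    (hm : MeasurableSet B) : MeasurableSet (e.symm '' B) := by
  have h1 : Measurable (e.source.domRestrict e) :=
    (continuousOn_iff_continuous_domRestrict.1 e.continuousOn).measurable
  have h2 := MeasurableSet.subtype_image e.open_source.measurableSet (h1 hm)
  convert h2 using 1
  ext p
  constructor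
  · rintro ⟨x, hx, rfl⟩
    refine ⟨⟨_, e.map_target (hB hx)⟩, ?_, rfl⟩
    show e (e.symm x) ∈ B
    rwa [e.right_inv (hB hx)]
  · rintro ⟨⟨q, hq⟩, h4, rfl⟩
    exact ⟨e q, h4, e.left_inv hq⟩

omit [MeasurableSpace M] [BorelSpace M] in
theorem ov_image (e : Ch n M) {B : Set (E n)} (hB : B ⊆ e.target) : ov e (e.symm '' B) = B := by
  ext x
  constructor
  · rintro ⟨h1, y, hy, h2⟩
    rw [← e.right_inv h1, ← h2, e.right_inv (hB hy)]
    exact hy
  · exact fun hx => ⟨hB hx, x, hx, rfl⟩

omit [MeasurableSpace M] [BorelSpace M] in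
theorem image_ov (e : Ch n M) {S : Set M} (hS : S ⊆ e.source) : e.symm '' ov e S = S := by
  ext p
  constructor
  · rintro ⟨x, hx, rfl⟩
    exact hx.2
  · intro hp
    refine ⟨e p, ⟨e.map_source (hS hp), ?_⟩, e.left_inv (hS hp)⟩
    show e.symm (e p) ∈ S
    rwa [e.left_inv (hS hp)]

/-- The measure of a chart. -/
noncomputable def chM (e : Ch n M) (g : Mtx n) : Measure M :=
  ((volume.restrict e.target).withDensity (dens g)).map e.symm

theorem chM_apply (e : Ch n M) (g : Mtx n) {B : Set M}
    (hB : MeasurableSet B) : chM e g B = ∫⁻ x in ov e B, dens g x := by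
  have h1 : AEMeasurable e.symm (volume.restrict e.target) :=
    e.continuousOn_symm.aemeasurable e.open_target.measurableSet
  have h2 : AEMeasurable e.symm ((volume.restrict e.target).withDensity (dens g)) :=
    h1.mono_ac (withDensity_absolutelyContinuous _ _)
  rw [chM, Measure.map_apply_of_aemeasurable h2 hB, withDensity_apply',
    Measure.restrict_restrict' e.open_target.measurableSet, inter_comm]
  rfl

theorem overlap {e e' : Ch n M} {G G' : Mtx n} (h : Rel e e' G G') {S : Set M}
    (hS : MeasurableSet S) (ha : S ⊆ e.source) (hb : S ⊆ e'.source) :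
    chM e G S = chM e' G' S := by
  rw [chM_apply _ _ hS, chM_apply _ _ hS]
  have hin : ∀ x ∈ ov e S, x ∈ e.target ∩ e.symm ⁻¹' e'.source := fun x hx => ⟨hx.1, hb hx.2⟩
  have himg : cm e e' '' ov e S = ov e' S := by
    ext y
    constructor
    · rintro ⟨x, hx, rfl⟩
      have h1 := (hin x hx).2
      refine ⟨e'.map_source h1, ?_⟩
      show e'.symm (e' (e.symm x)) ∈ S
      rw [e'.left_inv h1]
      exact hx.2
    · intro hy
      refine ⟨e (e'.symm y), ⟨e.map_source (ha hy.2), ?_⟩, ?_⟩
      · show e.symm (e (e'.symm y)) ∈ S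
        rw [e.left_inv (ha hy.2)]
        exact hy.2
      · show e' (e.symm (e (e'.symm y))) = y
        rw [e.left_inv (ha hy.2), e'.right_inv hy.1]
  have hinj : InjOn (cm e e') (ov e S) := by
    intro x hx y hy hxy
    have h1 : e.symm x = e.symm y := by
      rw [← e'.left_inv (hin x hx).2, ← e'.left_inv (hin y hy).2]
      exact congrArg _ hxy
    rw [← e.right_inv hx.1, h1, e.right_inv hy.1]
  have hd : ∀ x ∈ ov e S, DifferentiableAt ℝ (cm e e') x := fun x hx =>
    (h.chg.smooth x (hin x hx)).differentiableAt (by simp)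
  have h3 := lintegral_image_eq_lintegral_abs_det_fderiv_mul volume (measurableSet_ov e hS)
    (fun x hx => (hd x hx).hasFDerivAt.hasFDerivWithinAt) hinj (dens G')
  rw [← himg, h3]
  refine setLIntegral_congr_fun (measurableSet_ov e hS) fun x hx => ?_
  have h4 := h.chg.compat x (hin x hx)
  show dens G x = ENNReal.ofReal |(fderiv ℝ (cm e e') x).det| * dens G' (cm e e' x)
  rw [jac_det (hd x hx), dens, dens, h4, ← ENNReal.ofReal_mul (abs_nonneg _)]
  congr 1
  rw [Matrix.det_mul, Matrix.det_mul, Matrix.det_transpose,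
    show (jac (cm e e') x).det * (G' (cm e e' x)).det * (jac (cm e e') x).det =
      (jac (cm e e') x).det ^ 2 * (G' (cm e e' x)).det by ring, Real.sqrt_mul (sq_nonneg _),
    Real.sqrt_sq_eq_abs]

/-- The volume measure of a metric given in a family of charts which cover `M`. -/
theorem vol_fam [CompactSpace M] {I : Type} (e : I → Ch n M) (G : I → Mtx n)
    (hcov : ∀ p, ∃ i, p ∈ (e i).source) (h : ∀ i j, Rel (e i) (e j) (G i) (G j)) :
    ∃! μ : Measure M, ∀ i, ∀ B ⊆ (e i).target, MeasurableSet B →
      μ ((e i).symm '' B) = ∫⁻ x in B, ENNReal.ofReal √(G i x).det := by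
  obtain ⟨t, ht⟩ := isCompact_univ.elim_finite_subcover (fun i => (e i).source)
    (fun i => (e i).open_source) (fun p _ => mem_iUnion.2 (hcov p))
  have hu : ⋃ i : t, (e i.1).source = univ := by
    rw [eq_univ_iff_forall]
    intro x
    have := ht (mem_univ x)
    rw [mem_iUnion₂] at this
    obtain ⟨b, hb, h⟩ := this
    exact mem_iUnion.2 ⟨⟨b, hb⟩, h⟩
  have hms : ∀ i, MeasurableSet (e i).source := fun i => (e i).open_source.measurableSet
  refine existsUnique_of_exists_of_unique ?_ fun μ ν hμ hν => ?_
  · rcases isEmpty_or_nonempty t with hne | hne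
    · refine ⟨0, fun i B hB _ => ?_⟩
      have hB0 : B = ∅ := by
        refine eq_empty_of_forall_notMem fun x _ => ?_
        have : (e i).symm x ∈ ⋃ i : t, (e i.1).source := by rw [hu]; exact mem_univ _
        obtain ⟨j, -⟩ := mem_iUnion.1 this
        exact isEmptyElim j
      simp [hB0]
    obtain ⟨μ, hμ⟩ := glue (P := t) (fun i => (e i.1).source) (fun i => hms i.1)
      (fun i => chM (e i.1) (G i.1)) (fun p q S hS h1 h2 => overlap (h p.1 q.1) hS h1 h2)
    refine ⟨μ, fun a B hB hBm => ?_⟩
    have key : μ.restrict (e a).source = (chM (e a) (G a)).restrict (e a).source := by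
      rw [Measure.ext_iff_of_iUnion_eq_univ hu]
      intro p
      ext S hS
      rw [Measure.restrict_apply hS, Measure.restrict_apply hS,
        Measure.restrict_apply (hS.inter (hms _)), Measure.restrict_apply (hS.inter (hms _))]
      have hS' := (hS.inter (hms p.1)).inter (hms a)
      rw [hμ p _ hS' (inter_subset_left.trans inter_subset_right)]
      exact overlap (h p.1 a) hS' (inter_subset_left.trans inter_subset_right) inter_subset_right
    have hm := measurableSet_image (e a) hB hBm
    have hsub : (e a).symm '' B ⊆ (e a).source := by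
      rintro _ ⟨x, hx, rfl⟩
      exact (e a).map_target (hB hx)
    have e2 := congrArg (fun ν : Measure M => ν ((e a).symm '' B)) key
    simp only [Measure.restrict_apply hm, inter_eq_left.2 hsub] at e2
    rw [e2, chM_apply _ _ hm, ov_image _ hB]
    rfl
  · rw [Measure.ext_iff_of_iUnion_eq_univ hu]
    intro i
    ext S hS
    rw [Measure.restrict_apply hS, Measure.restrict_apply hS,
      ← image_ov (e i.1) (S := S ∩ (e i.1).source) inter_subset_right]
    have hm := measurableSet_ov (e i.1) (hS.inter (hms i.1))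
    exact (hμ i.1 _ inter_subset_left hm).trans (hν i.1 _ inter_subset_left hm).symm

/-- The Riemannian volume measure exists and is unique. -/
theorem vol_J [CompactSpace M] {c : M → Ch n M} (hc : Atl c) {g : M → Mtx n} (hg : Met c g) :
    ∃! μ : Measure M, Vol c g μ :=
  vol_fam c g (fun p => ⟨p, (hc p).1⟩) fun a b p hp hp' =>
    ⟨((hc a).2 b p hp hp').1, (hg a p hp).2.2 b hp'⟩

end Vale.Agent.P223W69
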