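import Vale.Agent.P223W69.Defs
import Vale.Agent.P223W69.Vol
import Mathlib.Geometry.Manifold.ContMDiffMFDeriv
import Mathlib.Geometry.Manifold.MFDeriv.FDeriv
import Mathlib.Geometry.Manifold.VectorBundle.Hom

/-! Smooth charts, coordinate vectors, and the matrices of a Riemannian metric. -/

namespace Vale.Agent.P223W69

open scoped Manifold ContDiff Topology
open MeasureTheory Vale.Agent.P223 Vale.Agent.P223.J Set

variable {n : ℕ} {M : Type} [TopologicalSpace M]

theorem co_source (e : Cht n M) : (co e).source = e.source := rfl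

theorem co_apply (e : Cht n M) (p : M) (j : Fin n) : co e p j = e p j := rfl

/-- The chart with values in the Euclidean space. -/
noncomputable def un (e : Ch n M) : Cht n M :=
  e.transHomeomorph (EuclideanSpace.equiv (Fin n) ℝ).symm.toHomeomorph

theorem co_un (e : Ch n M) : co (un e) = e :=
  OpenPartialHomeomorph.ext _ _ (fun _ => rfl) (fun _ => rfl) rfl

theorem ev_symm {e e' : Ch n M} {p : M} (hp : p ∈ e.source) (hp' : p ∈ e'.source) :
    (e.symm : E n → M) =ᶠ[𝓝 (e p)] e'.symm ∘ cm e e' := by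
  have h1 : e.target ∩ e.symm ⁻¹' e'.source ∈ 𝓝 (e p) :=
    (e.symm.isOpen_inter_preimage e'.open_source).mem_nhds ⟨e.map_source hp, by
      simp only [Set.mem_preimage]; rwa [e.left_inv hp]⟩
  filter_upwards [h1] with x hx
  exact (e'.left_inv hx.2).symm

theorem cm_apply {e e' : Ch n M} {p : M} (hp : p ∈ e.source) : cm e e' (e p) = e' p := by
  unfold cm; rw [e.left_inv hp]

variable [ChartedSpace (EE n) M]

/-- The chart and its inverse are smooth. -/
def SC (e : Ch n M) : Prop :=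
  ContMDiffOn (𝓡 n) 𝓘(ℝ, E n) ∞ e e.source ∧ ContMDiffOn 𝓘(ℝ, E n) (𝓡 n) ∞ e.symm e.target

theorem sc_co {e : Cht n M} (he : e ∈ IsManifold.maximalAtlas (𝓡 n) ∞ M) : SC (co e) :=
  ⟨(EuclideanSpace.equiv (Fin n) ℝ).contDiff.contMDiff.comp_contMDiffOn
      (contMDiffOn_of_mem_maximalAtlas he),
    (contMDiffOn_symm_of_mem_maximalAtlas he).comp
      (EuclideanSpace.equiv (Fin n) ℝ).symm.contDiff.contMDiff.contMDiffOn fun _ hx => hx⟩

theorem mem_un [IsManifold (𝓡 n) ∞ M] {e : Ch n M} (he : SC e) :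
    un e ∈ IsManifold.maximalAtlas (𝓡 n) ∞ M :=
  (un e).mem_maximalAtlas_of_contMDiffOn
    ((EuclideanSpace.equiv (Fin n) ℝ).symm.contDiff.contMDiff.comp_contMDiffOn he.1)
    (he.2.comp (EuclideanSpace.equiv (Fin n) ℝ).contDiff.contMDiff.contMDiffOn fun _ hx => hx)

theorem SC.at {e : Ch n M} (he : SC e) {p : M} (hp : p ∈ e.source) :
    ContMDiffAt (𝓡 n) 𝓘(ℝ, E n) ∞ e p := he.1.contMDiffAt (e.open_source.mem_nhds hp)

theorem SC.symm_at {e : Ch n M} (he : SC e) {x : E n} (hx : x ∈ e.target) :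
    ContMDiffAt 𝓘(ℝ, E n) (𝓡 n) ∞ e.symm x := he.2.contMDiffAt (e.open_target.mem_nhds hx)

theorem SC.cm {e e' : Ch n M} (he : SC e) (he' : SC e') {p : M} (hp : p ∈ e.source)
    (hp' : p ∈ e'.source) : ContDiffAt ℝ ∞ (cm e e') (e p) := by
  have h1 : ContMDiffAt (𝓡 n) 𝓘(ℝ, E n) ∞ e' (e.symm (e p)) := by
    rw [e.left_inv hp]; exact he'.at hp'
  exact contMDiffAt_iff_contDiffAt.1 (h1.comp (e p) (he.symm_at (e.map_source hp)))

/-- The differential of the inverse of the chart. -/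
noncomputable def D (e : Ch n M) (x : E n) : E n →L[ℝ] EE n :=
  mfderiv 𝓘(ℝ, E n) (𝓡 n) e.symm x

theorem chain {e e' : Ch n M} (he' : SC e') {p : M} (hp : p ∈ e.source) (hp' : p ∈ e'.source)
    (hd : DifferentiableAt ℝ (cm e e') (e p)) (v : E n) :
    D e (e p) v = D e' (e' p) (fderiv ℝ (cm e e') (e p) v) := by
  have h1 : MDifferentiableAt 𝓘(ℝ, E n) (𝓡 n) e'.symm (e' p) :=
    (he'.symm_at (e'.map_source hp')).mdifferentiableAt (by simp)
  have h2 := mfderiv_comp_apply_of_eq (e p) h1 hd.mdifferentiableAt (cm_apply hp) v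
  rw [mfderiv_eq_fderiv] at h2
  have h3 := (ev_symm hp hp').mfderiv_eq (I := 𝓘(ℝ, E n)) (I' := 𝓡 n)
  exact (congrArg (fun L : E n →L[ℝ] EE n => L v) h3).trans h2

theorem D_inj {e : Ch n M} (he : SC e) {x : E n} (hx : x ∈ e.target) {v : E n}
    (h : D e x v = 0) : v = 0 := by
  have h1 : MDifferentiableAt 𝓘(ℝ, E n) (𝓡 n) e.symm x := (he.symm_at hx).mdifferentiableAt (by simp)
  have h2 : MDifferentiableAt (𝓡 n) 𝓘(ℝ, E n) e (e.symm x) :=
    (he.at (e.map_target hx)).mdifferentiableAt (by simp)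
  have h3 := mfderiv_comp_apply x h2 h1 v
  have h4 : (e ∘ e.symm : E n → E n) =ᶠ[𝓝 x] id := by
    filter_upwards [e.open_target.mem_nhds hx] with y hy
    exact e.right_inv hy
  rw [mfderiv_eq_fderiv, h4.fderiv_eq, fderiv_id] at h3
  have h5 : mfderiv 𝓘(ℝ, E n) (𝓡 n) e.symm x v = 0 := h
  rw [h5, map_zero] at h3
  exact h3

theorem D_sum (L : E n →L[ℝ] EE n) (v : E n) : L v = ∑ i, v i • L (Pi.single i 1) := by
  conv_lhs => rw [pi_eq_sum_univ' v]
  rw [map_sum]
  exact Finset.sum_congr rfl fun i _ => by rw [map_smul]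

variable [IsManifold (𝓡 n) ∞ M]

/-- The scalar product at `p`. -/
noncomputable def ip (g : RM (EE n) M) (p : M) : EE n →L[ℝ] EE n →L[ℝ] ℝ := g.inner p

theorem gm_apply (g : RM (EE n) M) (e : Cht n M) (x : E n) (i j : Fin n) : gm g e x i j =
    ip g ((co e).symm x) (D (co e) x (Pi.single i 1)) (D (co e) x (Pi.single j 1)) := rfl

theorem bil_gm (g : RM (EE n) M) (e : Cht n M) (x v w : E n) : bil (gm g e x) v w =
    ip g ((co e).symm x) (D (co e) x v) (D (co e) x w) := by
  rw [D_sum _ v, D_sum _ w]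
  simp only [map_sum, map_smul, sum_apply, smul_apply,
    smul_eq_mul, bil, gm_apply, Finset.mul_sum]
  rw [Finset.sum_comm]
  exact Finset.sum_congr rfl fun i _ => Finset.sum_congr rfl fun j _ => by ring

theorem rel_gm (g : RM (EE n) M) {e e' : Cht n M} (he : SC (co e)) (he' : SC (co e')) :
    Rel (co e) (co e') (gm g e) (gm g e') := by
  intro p hp hp'
  have h := he.cm he' hp hp'
  refine ⟨h, fun v w => ?_⟩
  rw [bil_gm, bil_gm, (co e).left_inv hp, (co e').left_inv hp',
    chain he' hp hp' (h.differentiableAt (by simp)) v,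
    chain he' hp hp' (h.differentiableAt (by simp)) w]

open Bundle in
theorem smooth_ip (g : RM (EE n) M) {e : Ch n M} (he : SC e) (v w : E n) :
    ContDiffOn ℝ ∞ (fun x => ip g (e.symm x) (D e x v) (D e x w)) e.target := by
  have key : ∀ v : E n, ContMDiffOn 𝓘(ℝ, E n) (𝓡 n).tangent ∞
      (fun z : E n => (⟨e.symm z, mfderiv 𝓘(ℝ, E n) (𝓡 n) e.symm z v⟩ : TangentBundle (𝓡 n) M))
      e.target := by
    intro v z hz
    have h2 : ContMDiffOn 𝓘(ℝ, E n).tangent (𝓡 n).tangent ∞
        (tangentMapWithin 𝓘(ℝ, E n) (𝓡 n) e.symm e.target)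
        (Bundle.TotalSpace.proj ⁻¹' e.target) :=
      he.2.contMDiffOn_tangentMapWithin (by simp) e.open_target.uniqueMDiffOn
    have h3 : ContMDiff 𝓘(ℝ, E n) 𝓘(ℝ, E n).tangent ∞
        (fun z : E n => (⟨z, v⟩ : TangentBundle 𝓘(ℝ, E n) (E n))) :=
      contMDiff_vectorSpace_iff_contDiff (V := fun z : E n => (v : TangentSpace 𝓘(ℝ, E n) z)) |>.2
        contDiff_const
    have h4 := h2.comp (h3.contMDiffOn (s := e.target)) (fun z hz => hz)
    refine (h4 z hz).congr (fun y hy => ?_) ?_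
    · simp only [Function.comp, tangentMapWithin]
      rw [mfderivWithin_of_isOpen e.open_target hy]
    · simp only [Function.comp, tangentMapWithin]
      rw [mfderivWithin_of_isOpen e.open_target hz]
  let _ : Bundle.RiemannianBundle (fun p : M => TangentSpace (𝓡 n) p) := ⟨g.toRiemannianMetric⟩
  have _ : IsContMDiffRiemannianBundle (𝓡 n) ∞ (EE n) fun p : M => TangentSpace (𝓡 n) p :=
    ⟨g.inner, g.contMDiff, fun _ _ _ => rfl⟩
  have h5 := ContMDiffOn.inner_bundle (IB := 𝓡 n) (IM := 𝓘(ℝ, E n)) (n := ∞) (F := EE n)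
    (E := fun x : M => TangentSpace (𝓡 n) x) (b := fun z : E n => e.symm z)
    (v := fun z : E n => mfderiv 𝓘(ℝ, E n) (𝓡 n) e.symm z v)
    (w := fun z : E n => mfderiv 𝓘(ℝ, E n) (𝓡 n) e.symm z w) (key v) (key w)
  exact contMDiffOn_iff_contDiffOn.1 h5

theorem met_gm (g : RM (EE n) M) {e : Cht n M} (he : SC (co e)) :
    IsMetricOn (co e).target (gm g e) where
  smooth i j := smooth_ip g he _ _
  posDef x hx := by
    refine Matrix.PosDef.of_dotProduct_mulVec_pos ?_ fun v hv => ?_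
    · ext i j
      exact g.symm _ _ _
    · have h1 : star v ⬝ᵥ (gm g e x).mulVec v = bil (gm g e x) v v := by
        simp only [star_trivial, dotProduct, Matrix.mulVec, bil, Finset.mul_sum]
        exact Finset.sum_congr rfl fun i _ => Finset.sum_congr rfl fun j _ => by ring
      rw [h1, bil_gm]
      exact g.pos _ _ fun h => hv (D_inj he hx h)

/-- The scalar curvature can be computed in every smooth chart. -/
theorem scal_eq (g : RM (EE n) M) {e : Cht n M} (he : e ∈ IsManifold.maximalAtlas (𝓡 n) ∞ M) {p : M}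
    (hp : p ∈ e.source) : J.scal (gm g e) (co e p) = Scal g p := by
  have h' := sc_co (IsManifold.chart_mem_maximalAtlas (I := 𝓡 n) (n := ∞) p)
  exact (rel_gm g (sc_co he) h').scal_eq (met_gm g (sc_co he)) (met_gm g h') hp
    (mem_chart_source _ p)

/-- The Riemannian volume measure exists and is unique. -/
theorem exists_unique_vol [CompactSpace M] [MeasurableSpace M] [BorelSpace M] (g : RM (EE n) M) :
    ∃! μ : Measure M, IsVol g μ := by
  have h := vol_fam (I := IsManifold.maximalAtlas (𝓡 n) ∞ M) (fun e => co e.1) (fun e => gm g e.1)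
    (fun p => ⟨⟨_, IsManifold.chart_mem_maximalAtlas p⟩, mem_chart_source _ p⟩)
    fun i j => rel_gm g (sc_co i.2) (sc_co j.2)
  exact (existsUnique_congr fun μ => Subtype.forall).1 h

theorem met_J (g : RM (EE n) M) {e : M → Cht n M}
    (he : ∀ a, e a ∈ IsManifold.maximalAtlas (𝓡 n) ∞ M) :
    Met (fun a => co (e a)) fun a => gm g (e a) := by
  intro a p hp
  have h := met_gm g (sc_co (he a))
  have hx := (co (e a)).map_source hp
  exact ⟨fun i j => (h.smooth i j).contDiffAt ((co (e a)).open_target.mem_nhds hx), h.posDef _ hx,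
    fun b hb => (rel_gm g (sc_co (he a)) (sc_co (he b)) p hp hb).2⟩

end Vale.Agent.P223W69
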