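import Vale.Agent.P223W69.Defs

/-! Homology classes of real cycles and their `ℓ¹`-seminorm. -/

namespace Vale.Agent.P223W69

open Vale.Agent.P223.J

variable {k : ℕ} {M : Type} [TopologicalSpace M]

/-- `z - z₀` is the boundary of a real singular chain. -/
def Homol (z z₀ : Simp k M →₀ ℝ) : Prop :=
  ∃ b : Simp (k + 1) M →₀ ℝ, ∀ τ, z τ = z₀ τ + bd b τ

/-- The infimum of `∑ |a_j|` over all chains `∑ a_j σ_j` in the homology class of `z₀`. -/
noncomputable def nrm (z₀ : Simp k M →₀ ℝ) : ENNReal :=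
  ⨅ (z : Simp k M →₀ ℝ) (_ : Homol z z₀), ENNReal.ofReal (z.sum fun _ r => |r|)

end Vale.Agent.P223W69
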